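import Mathlib
import Vale.Agent.P321.Defs
import Vale.Agent.P321.Upper

namespace Vale.Agent.Results.P321.QuasiPoly

open Vale.Agent.P321

theorem result : ∃ n₀ : ℕ, ∀ n : ℕ, n₀ ≤ n → ∀ q : ℝ, 0 < q → q < 1 →
    Reconstructible q n (T q n) ∧
      (T q n : ℝ) ≤ Real.exp (Real.log n ^ 67 / (1 - q) ^ 2) :=
  ⟨⌈Real.exp 64⌉₊, fun n hn q h0 h1 => upper n (Nat.ceil_le.1 hn) q h0.le h1⟩

end Vale.Agent.Results.P321.QuasiPoly
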