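import Mathlib
import Vale.Agent.P321.Defs
import Vale.Agent.P321.Lower

namespace Vale.Agent.Results.P321.TwoSided

open Vale.Agent.P321

theorem result (q : ℝ) (h0 : 0 < q) (h1 : q < 1) :
    (∃ n₀ : ℕ, ∀ n : ℕ, n₀ ≤ n → Reconstructible q n (T q n) ∧
      (n : ℝ) ^ (Real.log (Real.log n) / 768) ≤ T q n ∧
      (T q n : ℝ) ≤ Real.exp (Real.log n ^ 67 / (1 - q) ^ 2)) ∧
    ∀ (C : ℝ) (d : ℕ), ∃ n₀ : ℕ, ∀ n : ℕ, n₀ ≤ n → C * (n : ℝ) ^ d < T q n :=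
  ⟨LB.two_sided h0 h1, LB.superpoly h0 h1⟩

end Vale.Agent.Results.P321.TwoSided
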